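import Vale.Agent.P227.M.Top.Chain
import Vale.Agent.P227.M.END.ToQ1
import Vale.Agent.P227.M.LOC.Loc945
import Vale.Agent.P227.M.ID.Stein294
import Vale.Agent.P227.M.ID.Div
import Vale.Agent.P227.M.ID.Key680b
import Vale.Agent.P227.M.MX.Top
import Vale.Agent.P227.M.LIN.TopG
import Vale.Agent.P227.M.LIN.AffStmt
import Vale.Agent.P227.M.LIN.Hilb119
import Vale.Agent.P227.M.LIN.Boch
import Vale.Agent.P227.M.LIN.Esa205
import Vale.Agent.P227.M.LIN.H1Done
import Vale.Agent.P227.M.SC.Done866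

namespace Vale.Agent.P227.Int187

open Vale.Agent.P227.M

theorem lin : StmtLin := LIN.T592.stmtLin_of B294.stmtIBP Esa205.stmtESA LIN.stmtBoch LIN.stmtConst
  LIN.stmtAff LIN.stmtH1 LIN.stmtHilb119

theorem q1 : StmtQ1 :=
  q1_of_blocks SC.Sc866.stmtSC MX.stmtMM_of_sc B294.stmtStein B294.stmtIBP
    stmtDiv K680.stmtKey lin Loc945.stmtLocal_of END.stmtQ1_of_stmtLocal

end Vale.Agent.P227.Int187
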